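import Vale.Agent.P183M.IF3

/-!
Conjugates of root elements by the isometries `gg` are not pure tensors.
-/

set_option linter.unusedSectionVars false
set_option linter.unusedVariables false

namespace Vale.Agent.P183NP

open Matrix Vale.Agent.P183M

lemma list_fix {ι k : Type} [CommRing k] {n : ℕ} (f : ι → Matrix (Fin n) (Fin n) k)
    {u : Fin n → k} : ∀ L : List ι, (∀ S ∈ L, f S *ᵥ u = u) → (L.map f).prod *ᵥ u = u
  | [], _ => by simp
  | S :: L, h => by
    rw [List.map_cons, List.prod_cons, ← mulVec_mulVec,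
      list_fix f L fun S' k => h S' (List.mem_cons_of_mem _ k), h S List.mem_cons_self]

lemma list_move {ι k : Type} [CommRing k] {n : ℕ} (f : ι → Matrix (Fin n) (Fin n) k) {B : ι}
    {u u' : Fin n → k} (h1 : f B *ᵥ u = u') : ∀ L : List ι, L.Nodup → B ∈ L →
      (∀ S ∈ L, S ≠ B → f S *ᵥ u = u ∧ f S *ᵥ u' = u') → (L.map f).prod *ᵥ u = u'
  | [], _, h, _ => absurd h List.not_mem_nil
  | S :: L, hL, hB, h => by
    rw [List.map_cons, List.prod_cons, ← mulVec_mulVec]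
    rw [List.nodup_cons] at hL
    by_cases e : S = B
    · rw [list_fix f L fun S' k => (h S' (List.mem_cons_of_mem _ k) fun e' =>
        hL.1 (e ▸ e' ▸ k)).1, e, h1]
    · rw [list_move f h1 L hL.2 ((List.mem_cons.1 hB).resolve_left (Ne.symm e))
        fun S' k => h S' (List.mem_cons_of_mem _ k), (h S List.mem_cons_self e).2]

section
variable {k : Type} [CommRing k] {A : Type} [Fintype A] [DecidableEq A] {I : Type} [Fintype I]
  [DecidableEq I]

lemma jj_vec (a : A) (X : Matrix I I k) (w : (A → I) → k) (α : A → I) :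
    (jj a X *ᵥ w) α = ∑ c, X (α a) c * w (Function.update α a c) := by
  rw [mulVec, dotProduct]
  refine (Finset.sum_of_injOn (Function.update α a) (Function.update_injective α a).injOn
    (fun _ _ => Finset.mem_univ _) (fun β _ hβ => ?_) fun c _ => ?_).symm
  · obtain ⟨b, hb, e⟩ : ∃ b, b ≠ a ∧ α b ≠ β b := by
      by_contra hc
      refine hβ ⟨β a, Finset.mem_univ _, funext fun b => ?_⟩
      by_cases e : b = a
      · rw [e, Function.update_self]
      · rw [Function.update_of_ne e]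
        exact not_not.1 fun e' => hc ⟨b, e, e'⟩
    rw [jj_apply, kr_update, Finset.prod_eq_zero (Finset.mem_erase.2 ⟨hb, Finset.mem_univ _⟩)
      (by exact one_apply_ne e), mul_zero, zero_mul]
  · rw [jj_apply, kr_update, Function.update_self, Finset.prod_eq_one fun b hb => by
      rw [Function.update_of_ne (Finset.ne_of_mem_erase hb), one_apply_eq], mul_one]

/-- `w` depends only on the coordinates in `Y` -/
def Dp (Y : A → Prop) (w : (A → I) → k) : Prop := ∀ α β, (∀ a, Y a → α a = β a) → w α = w β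

lemma Dp.jj {Y : A → Prop} {w w' : (A → I) → k} (h : Dp Y w) (h' : Dp (fun a => ¬ Y a) w') {a : A}
    (ha : Y a) (X : Matrix I I k) : Dp Y (jj a X *ᵥ w) ∧ jj a X *ᵥ (w * w') = (jj a X *ᵥ w) * w' := by
  refine ⟨fun α β e => ?_, funext fun α => ?_⟩
  · rw [jj_vec, jj_vec, e a ha]
    refine Finset.sum_congr rfl fun c _ => congrArg _ (h _ _ fun b hb => ?_)
    by_cases e' : b = a
    · rw [e', Function.update_self, Function.update_self]
    · rw [Function.update_of_ne e', Function.update_of_ne e', e b hb]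
  · rw [Pi.mul_apply, jj_vec, jj_vec, Finset.sum_mul]
    refine Finset.sum_congr rfl fun c _ => ?_
    rw [Pi.mul_apply, mul_assoc, h' _ α fun b hb =>
      Function.update_of_ne (fun e : b = a => hb (e ▸ ha)) _ _]

open Classical in
lemma pv_split (Y : A → Prop) (z : A → I → k) :
    ∃ w w', Dp Y w ∧ Dp (fun a => ¬ Y a) w' ∧ pv z = w * w' := by
  refine ⟨pv fun a => if Y a then z a else 1, pv fun a => if Y a then 1 else z a,
    fun α β e => Finset.prod_congr rfl fun a _ => ?_,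
    fun α β e => Finset.prod_congr rfl fun a _ => ?_, funext fun α => ?_⟩
  · by_cases h : Y a <;> simp [h, e a]
  · by_cases h : Y a <;> simp [h, e a]
  · rw [Pi.mul_apply, pv, pv, pv, ← Finset.prod_mul_distrib]
    exact Finset.prod_congr rfl fun a _ => by split_ifs <;> simp

end

variable {p : ℕ} {G : Type} [Group G] {R F0 : Type} [CommRing R] [Field F0] {d : ℕ}
  {D : Dat G R F0 d} {k : Type} [Field k] {n : ℕ} {τ : G →* Matrix (Fin n) (Fin n) k}
  (T : TV D τ)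

lemma KK_pv (N : Matrix (Fin d) (Fin d) R) {S : Finset (F0 →+* k)} (hS : ↑S ⊆ Set.range T.dg)
    (z : T.A → Fin d → k) : T.KK N S *ᵥ (T.P *ᵥ pv z) =
      T.P *ᵥ pv fun a => if T.dg a ∈ S then N.map a.1 *ᵥ z a else z a := by
  rw [TV.KK, T.E_vec, kq_pos _ hS, kr_pv]
  congr 2
  funext a
  split_ifs <;> simp

lemma KK_kill {N : Matrix (Fin d) (Fin d) R} {S : Finset (F0 →+* k)} {z : T.A → Fin d → k}
    (h : ↑S ⊆ Set.range T.dg → ∃ a, T.dg a ∈ S ∧ N.map a.1 *ᵥ z a = 0) :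
    T.KK N S *ᵥ (T.P *ᵥ pv z) = 0 := by
  by_cases hS : ↑S ⊆ Set.range T.dg
  · obtain ⟨a, h1, h2⟩ := h hS
    rw [KK_pv T N hS, pv_zero (a := a) (by rw [if_pos h1, h2]), mulVec_zero]
  · rw [T.KK_out _ hS, zero_mulVec]

variable [hp : Fact p.Prime] [CharP k p] [IsAlgClosed k] [Fintype F0] [CharP F0 p] (h : CD p D)
include h

lemma MM_eq (a b c : G) (S : Finset (F0 →+* k)) : MM p D τ a b c S =
    T.KK (D.W3 a b c) S - (-1 : k) ^ S.card • T.KK (D.W3 c b a) S := by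
  simp only [MM, T.cf_eq h, T.KK_mul, Dat.W3]

lemma aa_pure {X : Set (F0 →+* k)} {M : Matrix (Fin n) (Fin n) k} (hM : M ∈ AA p D τ X)
    {w' : (T.A → Fin d) → k} (h' : Dp (fun a => T.dg a ∉ X) w') :
    ∀ w, Dp (fun a => T.dg a ∈ X) w → ∃ w1, Dp (fun a => T.dg a ∈ X) w1 ∧
      M *ᵥ (T.P *ᵥ (w * w')) = T.P *ᵥ (w1 * w') := by
  induction hM using Algebra.adjoin_induction with
  | mem x hx =>
    obtain ⟨e, he, y, rfl⟩ := hx
    intro w hw
    rw [T.cf_eq h]
    by_cases k : e ∈ Set.range T.dg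
    · obtain ⟨a, rfl⟩ := k
      have := hw.jj h' he ((D.Nn y).map a.1)
      exact ⟨_, this.1, by rw [T.KK_single, ← this.2, ← T.E_vec]; rfl⟩
    · exact ⟨0, fun _ _ _ => rfl, by rw [T.KK_out _ (by simpa using k)]; simp⟩
  | algebraMap r =>
    exact fun w hw => ⟨r • w, fun α β e => congrArg (r * ·) (hw α β e), by
      rw [Algebra.algebraMap_eq_smul_one, smul_mulVec, one_mulVec, smul_mul_assoc, mulVec_smul]⟩
  | add x y _ _ hx hy =>
    intro w hw
    obtain ⟨w1, a1, a2⟩ := hx w hw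
    obtain ⟨w2, b1, b2⟩ := hy w hw
    exact ⟨w1 + w2, fun α β e => congrArg₂ (· + ·) (a1 α β e) (b1 α β e), by
      rw [add_mulVec, a2, b2, add_mul, mulVec_add]⟩
  | mul x y _ _ hx hy =>
    intro w hw
    obtain ⟨w1, a1, a2⟩ := hy w hw
    obtain ⟨w2, b1, b2⟩ := hx w1 a1
    exact ⟨w2, b1, by rw [← mulVec_mulVec, a2, b2]⟩

open Classical in
lemma pure_rel {X : Set (F0 →+* k)} {M : Matrix (Fin n) (Fin n) k} (hM : Pure p D τ X M)
    {z : T.A → Fin d → k} {w : (T.A → Fin d) → k} (e : M *ᵥ (T.P *ᵥ pv z) = T.P *ᵥ w)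
    {α β : T.A → Fin d} (hα : w α ≠ 0) (hβ : w β ≠ 0) :
    w (fun a => if T.dg a ∈ X then α a else β a) ≠ 0 := by
  obtain ⟨M1, h1, M2, h2, rfl⟩ := hM
  obtain ⟨w1, w2, a1, a2, a3⟩ := pv_split (fun a => T.dg a ∈ X) z
  obtain ⟨w3, b1, b2⟩ := aa_pure T h h2 (w' := w1)
    (fun α β e => a1 α β fun a ha => e a (not_not.2 ha)) w2 a2
  obtain ⟨w4, c1, c2⟩ := aa_pure T h h1 (w' := w3) b1 w1 a1
  rw [← mulVec_mulVec, a3, mul_comm w1, b2, mul_comm w3, c2] at e
  rw [← T.P_inj e] at hα hβ ⊢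
  rw [Pi.mul_apply, c1 _ α fun a ha => if_pos ha, b1 _ β fun a ha => if_neg ha]
  exact mul_ne_zero (left_ne_zero_of_mul hα) (right_ne_zero_of_mul hβ)

theorem np_core [Finite G] (hm : 0 < D.m) {a b c y : G} {i j l : Fin d} {v : Fin d → R}
    (w : Wd D a b c y i j l v) {s : Finset (Finset (F0 →+* k))} (hs : Fm s)
    {B : Finset (F0 →+* k)} (hB : B ∈ s) (hB' : ↑B ⊆ Set.range T.dg) :
    ∃ z0 z1 z2 : T.A → Fin d → k, gg p D τ a b c s *ᵥ (T.P *ᵥ pv z0) = T.P *ᵥ pv z0 ∧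
      τ (D.xx y 1) *ᵥ (T.P *ᵥ pv z0) = T.P *ᵥ pv z1 ∧
      gg p D τ a b c s *ᵥ (T.P *ᵥ pv z1) = T.P *ᵥ (pv z1 + pv z2) ∧
      (∀ x, T.dg x ∈ B → z1 x i = 0 ∧ z1 x j ≠ 0 ∧ z2 x i ≠ 0 ∧ z2 x j = 0) ∧
      ∀ x, T.dg x ∉ B → z1 x l ≠ 0 ∧ z2 x l ≠ 0 := by
  classical
  obtain ⟨e0, he0⟩ := hs.1 B hB
  obtain ⟨a0, rfl⟩ := hB' he0
  obtain ⟨u, hu⟩ := w.v3
  obtain ⟨u', hu'⟩ := w.j1
  let Y : (Fin d → R) → (Fin d → R) → T.A → Fin d → R := fun x x' a =>
    if T.dg a ∈ B then (if a = a0 then x else x') else ee l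
  let Z : (Fin d → R) → (Fin d → R) → T.A → Fin d → k := fun x x' a t => a.1 (Y x x' a t)
  have e1 : ∀ (N : Matrix (Fin d) (Fin d) R) x x' (a : T.A), N *ᵥ Y x x' a = 0 →
      N.map a.1 *ᵥ Z x x' a = 0 := fun N x x' a e => by
    rw [map_mulVec', e]
    exact funext fun _ => map_zero _
  have e2 : ∀ x x', ∀ S ∈ s.toList, S ≠ B →
      (1 + MM p D τ a b c S) *ᵥ (T.P *ᵥ pv (Z x x')) = T.P *ᵥ pv (Z x x') := fun x x' S hS e => by
    rw [Finset.mem_toList] at hS
    have e3 : ∀ N : Matrix (Fin d) (Fin d) R, N *ᵥ ee l = 0 →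
        T.KK N S *ᵥ (T.P *ᵥ pv (Z x x')) = 0 := fun N hN => KK_kill T fun k => by
      obtain ⟨t, ht⟩ := hs.1 S hS
      obtain ⟨t, rfl⟩ := k ht
      exact ⟨t, ht, e1 _ _ _ _ (by
        simp only [Y, if_neg (Finset.disjoint_left.1 (hs.2 S hS B hB e) ht), hN])⟩
    rw [MM_eq T h, add_mulVec, one_mulVec, sub_mulVec, smul_mulVec, e3 _ w.l1, e3 _ w.l2]
    simp
  have e4 : ∀ (N : Matrix (Fin d) (Fin d) R) x x', N *ᵥ x = 0 →
      T.KK N B *ᵥ (T.P *ᵥ pv (Z x x')) = 0 := fun N x x' hN =>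
    KK_kill T fun _ => ⟨a0, he0, e1 _ _ _ _ (by simp only [Y, if_pos he0, if_true, hN])⟩
  have hij := w.ij
  refine ⟨Z v (ee j), Z (v + (u : R) • ee j) (ee j), Z ((u * u' : R) • ee i) ((u' : R) • ee i),
    list_fix _ _ fun S hS => ?_, ?_, ?_, fun x hx => ?_, fun x hx => ?_⟩
  · by_cases e : S = B
    · rw [e, MM_eq T h, add_mulVec, one_mulVec, sub_mulVec, smul_mulVec, e4 _ _ _ w.v1,
        e4 _ _ _ w.v2]
      simp
    · exact e2 _ _ S hS e
  · rw [T.eq', T.E_vec, kr_pv, h.ρ_xx]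
    congr 2
    funext x
    rw [map_mulVec']
    funext t
    simp only [Z, Y, map_one, one_smul, add_mulVec, one_mulVec]
    split_ifs
    · rw [hu]
    · rw [w.j3, add_zero]
    · rw [w.l3, add_zero]
  · rw [mulVec_add]
    refine list_move _ ?_ _ s.nodup_toList (Finset.mem_toList.2 hB) fun S hS e =>
      ⟨e2 _ _ S hS e, by rw [mulVec_add, e2 _ _ S hS e, e2 _ _ S hS e]⟩
    rw [MM_eq T h, add_mulVec, one_mulVec, sub_mulVec, smul_mulVec, e4 (D.W3 c b a) _ _ (by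
      rw [mulVec_add, mulVec_smul, w.v2, w.j2, smul_zero, add_zero]), smul_zero, sub_zero,
      KK_pv T _ hB']
    congr 3
    funext x
    split_ifs with hx
    · rw [map_mulVec']
      funext t
      simp only [Z, Y, if_pos hx]
      split_ifs
      · rw [mulVec_add, mulVec_smul, w.v1, hu', zero_add, smul_smul]
      · rw [hu']
    · simp only [Z, Y, if_neg hx]
  · have h1 := (u.isUnit.map x.1).ne_zero
    have h2 := (u'.isUnit.map x.1).ne_zero
    simp only [Z, Y, if_pos hx]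
    split_ifs <;> simp [w.vi, w.vj, ee_self, ee_ne hij, ee_ne hij.symm, h1, h2]
  · simp [Z, Y, if_neg hx, ee_self]

omit h in
theorem np : NP := by
  classical
  intro p _ G _ T C n τ ⟨V⟩ hm a b c y i j l v w s hs B hB hB'
  rw [V.dg_eq C.cd (by omega)] at hB'
  obtain ⟨z0, z1, z2, h1, h2, h3, h4, h5⟩ := np_core V C.cd (by omega) w hs hB hB'
  obtain ⟨e0, he0⟩ := hs.1 B hB
  obtain ⟨a0, rfl⟩ := hB' he0
  let α : Fin C.d → V.A → Fin C.d := fun t x => if V.dg x ∈ B then t else l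
  have e1 : pv z1 (α i) = 0 :=
    Finset.prod_eq_zero (Finset.mem_univ a0) (by simpa [α, he0] using (h4 a0 he0).1)
  have e2 : pv z2 (α j) = 0 :=
    Finset.prod_eq_zero (Finset.mem_univ a0) (by simpa [α, he0] using (h4 a0 he0).2.2.2)
  have e3 : pv z2 (α i) ≠ 0 := Finset.prod_ne_zero_iff.2 fun x _ => by
    by_cases hx : V.dg x ∈ B
    · simpa [α, hx] using (h4 x hx).2.2.1
    · simpa [α, hx] using (h5 x hx).2
  have e4 : pv z1 (α j) ≠ 0 := Finset.prod_ne_zero_iff.2 fun x _ => by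
    by_cases hx : V.dg x ∈ B
    · simpa [α, hx] using (h4 x hx).2.1
    · simpa [α, hx] using (h5 x hx).1
  refine ⟨fun r e => ?_, fun X ⟨x1, k1, k2⟩ ⟨x2, k3, k4⟩ M hM e => ?_⟩
  · have := congrArg (· *ᵥ (V.P *ᵥ pv z0)) e
    simp only [smul_mulVec, ← mulVec_mulVec, h1, h2, h3] at this
    rw [← mulVec_smul] at this
    have := congrFun (V.P_inj this) (α i)
    simp [e1, e3] at this
  · have := congrArg (· *ᵥ (V.P *ᵥ pv z0)) e
    simp only [← mulVec_mulVec, h1, h2, h3] at this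
    obtain ⟨x1, rfl⟩ := hB' k1
    obtain ⟨x2, rfl⟩ := hB' k3
    refine pure_rel V C.cd hM this.symm (α := α i) (β := α j) (by simpa [e1] using e3)
      (by simpa [e2] using e4) ?_
    rw [Pi.add_apply, pv, pv, Finset.prod_eq_zero (Finset.mem_univ x1)
      (by simpa [α, k1, k2] using (h4 x1 k1).1), Finset.prod_eq_zero (Finset.mem_univ x2)
      (by simpa [α, k3, k4] using (h4 x2 k3).2.2.2), add_zero]

end Vale.Agent.P183NP
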